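import Vale.Agent.P201.S.Defs
import Vale.Agent.P201.G.BB5

/-! P201, part B for a general system: `stmtB : StmtB`.  helper333 (with helper585). -/

namespace Vale.Agent.P201.S

open Finset

variable {S : Sys}

theorem girth_of_ag {σ : Equiv.Perm S.C} {g : ℕ} (h : G.B.AG S.blk (G.B.amt σ) g) : Girth σ g := by
  intro l hne hl
  obtain ⟨x, l', rfl⟩ := List.exists_cons_of_ne_nil hne
  have h1 := h x l' (by
    rw [← List.cons_append, List.isChain_append]
    refine ⟨hl.1, List.isChain_singleton _, ?_⟩
    intro a ha b hb
    simp only [List.head?_cons, Option.mem_def, Option.some.injEq] at hb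
    subst hb
    exact hl.2 a ha _ (by simp))
  simpa using h1

theorem ag_of_girth {σ : Equiv.Perm S.C} {g : ℕ} (h : Girth σ g) : G.B.AG S.blk (G.B.amt σ) g := by
  intro x l hl
  have hl' := hl
  rw [← List.cons_append, List.isChain_append] at hl'
  have h1 := h (x :: l) (by simp) ⟨hl'.1, by
    intro a ha b hb
    simp only [List.head?_cons, Option.mem_def, Option.some.injEq] at hb
    subst hb
    exact hl'.2.2 a ha _ (by simp)⟩
  simpa using h1

/-- PART B -/
theorem stmtB : StmtB := by
  intro S g D s hD hN Q hQ0 hQ1 hQs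
  obtain ⟨σ, -, hG, hS⟩ := G.B.aStmtB S.C S.B Unit S.blk (fun _ => ()) g D (Fintype.card S.C) s
    (by
      intro b
      have h := hD b
      convert h)
    (by
      intro a
      rw [← card_univ]
      apply le_of_eq
      congr 1
      ext c
      simp) hN Q hQ0 hQ1 hQs
  refine ⟨σ, girth_of_ag hG, fun E hE => hS E (fun x hx => ?_)⟩
  have := hE hx
  unfold gr at this
  rw [mem_image] at this
  obtain ⟨c, _, hc⟩ := this
  rw [← hc]

end Vale.Agent.P201.S
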